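import Vale.Agent.P262.Full.Final

/-!
# P262: the Euclidean Steinitz constant is at most `C √d (1 + log d)^{3/2}`

Every finite family (of any length `N`) of vectors of norm at most one in `ℝ^d` with sum zero
can be ordered so that all partial sums have norm at most `C √d (1 + log d)^{3/2}`,
with one absolute constant `C`.
-/

namespace Vale.Agent.Results.P262.SteinitzPolylog

theorem result : ∃ C : ℝ, 0 < C ∧ ∀ d : ℕ, 1 ≤ d →
    ∀ (N : ℕ) (v : Fin N → EuclideanSpace ℝ (Fin d)),
    (∀ i, ‖v i‖ ≤ 1) → ∑ i, v i = 0 →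
    ∃ π : Equiv.Perm (Fin N), ∀ k : ℕ,
      ‖∑ i ∈ Finset.univ.filter (fun i : Fin N => (i : ℕ) < k), v (π i)‖
        ≤ C * √d * (1 + Real.log d) ^ (3 / 2 : ℝ) :=
  Vale.Agent.P262.main

end Vale.Agent.Results.P262.SteinitzPolylog
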